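import Mathlib
import Vale.Agent.Lib.P052.lead.Data

/-!
# P052: a packed-row certificate for the matrix identity

Row `k` of the matrix `Nmat + 3` (entries in `0..18`) is packed into one natural number in
base `2^20`.  The identity `Nmat.transpose * Nmat = 96 * Nmat` is then checked row by row with
big-number arithmetic.  This file holds the definitions and the two kernel computations.
-/

namespace Vale.Agent.Lib.P052.H89

open Vale.Agent.Lib.P052

/-- The base of the packing. -/
def B : ℕ := 1048576

/-- Cluster index: `0` for the 320 points of the flat, `1, 2, 3` for the three clusters. -/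
def cl (u : ℕ) : ℕ := if u < 320 then 0 else if u < 352 then 1 else if u < 384 then 2 else 3

/-- The part of the entry `Nmat k v + 3` that depends only on the clusters `c` of `k` and of `v`. -/
def bent (c v : ℕ) : ℕ := if c = 0 then 2 else if cl v = 0 then 2 else if c = cl v then 0 else 3

/-- Base-`B` packing of the first `n` values of `f`. -/
def pack (f : ℕ → ℕ) : ℕ → ℕ
  | 0 => 0
  | n + 1 => pack f n + f n * B ^ n

/-- The packed cluster part for a row in the flat. -/
def base0 : ℕ := pack (bent 0) 416

/-- The packed cluster part for a row in the first cluster. -/
def base1 : ℕ := pack (bent 1) 416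

/-- The packed cluster part for a row in the second cluster. -/
def base2 : ℕ := pack (bent 2) 416

/-- The packed cluster part for a row in the third cluster. -/
def base3 : ℕ := pack (bent 3) 416

/-- The packed cluster part of row `k`. -/
def baseRow (k : ℕ) : ℕ :=
  if k < 320 then base0 else if k < 352 then base1 else if k < 384 then base2 else base3

/-- The low `n` bits of `r`, spread out into base-`B` digits. -/
def spread : ℕ → ℕ → ℕ
  | 0, _ => 0
  | n + 1, r => r % 2 + B * spread n (r / 2)

/-- The packed row `k`, computed from its neighbour bitmask `r`. -/
def rowOf (k r : ℕ) : ℕ := baseRow k + 4 * spread 416 r + (16 - 4 * (r / 2 ^ k % 2)) * B ^ k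

/-- The packed row `k`. -/
def row (k : ℕ) : ℕ := rowOf k (adjRows.getD k 0)

/-- The packed all-ones row. -/
def ones : ℕ := pack (fun _ => 1) 416

/-- Sum of the first `n` packed rows. -/
def colsum : ℕ → ℕ
  | 0 => 0
  | n + 1 => colsum n + row n

/-- Sum of `digit_u (row k) * row k` over `k < n`. -/
def wsum (u : ℕ) : ℕ → ℕ
  | 0 => 0
  | n + 1 => wsum u n + (row n >>> (20 * u)) % B * row n

/-- The row checks for all `u < n`. -/
def allRows : ℕ → Bool
  | 0 => true
  | n + 1 => allRows n && (wsum n 416 == 96 * row n + 3456 * ones)

/-- The kernel computation: all 416 row identities and the column sums. -/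
theorem all_check : (allRows 416 && (colsum 416 == 1248 * ones)) = true := by decide +kernel

end Vale.Agent.Lib.P052.H89
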