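import Mathlib
import Vale.Agent.Lib.P052.lead.Data
import Vale.Agent.Lib.P052.helper89.Check

/-!
# P052: `Nmat.transpose * Nmat = 96 • Nmat`

The bridge from the packed-row kernel computation of `Check.lean` to the matrix identity.
-/

namespace Vale.Agent.Lib.P052.H89

open Vale.Agent.Lib.P052

theorem B_pos : 0 < B := by norm_num [B]

theorem pack_eq_sum (f : ℕ → ℕ) (n : ℕ) : pack f n = ∑ v ∈ Finset.range n, f v * B ^ v := by
  induction n with
  | zero => rfl
  | succ n ih => rw [pack, ih, Finset.sum_range_succ]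

theorem pack_lt (f : ℕ → ℕ) (hf : ∀ v, f v < B) (n : ℕ) : pack f n < B ^ n := by
  induction n with
  | zero => simp [pack]
  | succ n ih =>
    rw [pack, pow_succ]
    have h1 : f n + 1 ≤ B := hf n
    calc pack f n + f n * B ^ n < B ^ n + f n * B ^ n := by omega
      _ = (f n + 1) * B ^ n := by ring
      _ ≤ B * B ^ n := Nat.mul_le_mul_right _ h1
      _ = B ^ n * B := by ring

theorem pack_digit (f : ℕ → ℕ) (hf : ∀ v, f v < B) (n v : ℕ) (hv : v < n) :
    pack f n / B ^ v % B = f v := by
  induction n with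
  | zero => omega
  | succ n ih =>
    rw [pack]
    rcases Nat.lt_succ_iff_lt_or_eq.mp hv with h | h
    · obtain ⟨d, rfl⟩ := Nat.exists_eq_add_of_lt h
      have h2 : f (v + d + 1) * B ^ (v + d + 1) = B ^ v * (f (v + d + 1) * B ^ d * B) := by ring
      rw [h2, Nat.add_mul_div_left _ _ (pow_pos B_pos v), Nat.add_mul_mod_self_right, ih h]
    · subst h
      rw [Nat.add_mul_div_right _ _ (pow_pos B_pos v), Nat.div_eq_of_lt (pack_lt f hf v), zero_add,
        Nat.mod_eq_of_lt (hf v)]

theorem pack_inj (f g : ℕ → ℕ) (hf : ∀ v, f v < B) (hg : ∀ v, g v < B) (n : ℕ)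
    (h : pack f n = pack g n) (v : ℕ) (hv : v < n) : f v = g v := by
  rw [← pack_digit f hf n v hv, ← pack_digit g hg n v hv, h]

theorem pack_add (f g : ℕ → ℕ) (n : ℕ) : pack (fun v => f v + g v) n = pack f n + pack g n := by
  simp only [pack_eq_sum, add_mul, Finset.sum_add_distrib]

theorem pack_smul (c : ℕ) (f : ℕ → ℕ) (n : ℕ) : pack (fun v => c * f v) n = c * pack f n := by
  simp only [pack_eq_sum, Finset.mul_sum, mul_assoc]

theorem pack_single (c k n : ℕ) (hk : k < n) :
    pack (fun v => if v = k then c else 0) n = c * B ^ k := by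
  simp only [pack_eq_sum, ite_mul, zero_mul]
  rw [Finset.sum_ite_eq' (Finset.range n) k (fun v => c * B ^ v)]
  simp [hk]

theorem pack_sum (s : Finset ℕ) (c : ℕ → ℕ) (h : ℕ → ℕ → ℕ) (n : ℕ) :
    ∑ k ∈ s, c k * pack (h k) n = pack (fun v => ∑ k ∈ s, c k * h k v) n := by
  simp only [pack_eq_sum, Finset.mul_sum, Finset.sum_mul]
  rw [Finset.sum_comm]
  simp only [mul_assoc]

theorem pack_succ' (f : ℕ → ℕ) (n : ℕ) :
    pack f (n + 1) = f 0 + B * pack (fun v => f (v + 1)) n := by
  simp only [pack_eq_sum, Finset.sum_range_succ', Finset.mul_sum]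
  rw [add_comm]
  congr 1
  · simp
  · refine Finset.sum_congr rfl fun v _ => ?_
    ring

theorem spread_eq (n r : ℕ) : spread n r = pack (fun v => r / 2 ^ v % 2) n := by
  induction n generalizing r with
  | zero => rfl
  | succ n ih =>
    rw [spread, ih, pack_succ']
    congr 1
    · simp
    · congr 2
      funext v
      rw [Nat.div_div_eq_div_mul, pow_succ']

theorem baseRow_eq (k : ℕ) : baseRow k = pack (bent (cl k)) 416 := by
  unfold baseRow cl base0 base1 base2 base3
  split_ifs <;> rfl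

/-- The neighbour bitmask of `k`. -/
def rk (k : ℕ) : ℕ := adjRows.getD k 0

/-- The entry `Nmat k v + 3`. -/
def E (k v : ℕ) : ℕ :=
  bent (cl k) v + 4 * (rk k / 2 ^ v % 2) + (if v = k then 16 - 4 * (rk k / 2 ^ k % 2) else 0)

theorem row_eq (k : ℕ) (hk : k < 416) : row k = pack (E k) 416 := by
  unfold E
  rw [pack_add, pack_add, pack_smul, pack_single _ _ _ hk, ← spread_eq, ← baseRow_eq]
  rfl

theorem E_le (k v : ℕ) : E k v ≤ 23 := by
  have h1 : rk k / 2 ^ v % 2 < 2 := Nat.mod_lt _ (by norm_num)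
  unfold E bent
  generalize rk k / 2 ^ v % 2 = b at h1
  generalize rk k / 2 ^ k % 2 = b'
  split_ifs <;> omega

theorem E_lt (k v : ℕ) : E k v < B := lt_of_le_of_lt (E_le k v) (by norm_num [B])

theorem colsum_eq (n : ℕ) : colsum n = ∑ k ∈ Finset.range n, row k := by
  induction n with
  | zero => rfl
  | succ n ih => rw [colsum, ih, Finset.sum_range_succ]

theorem two_pow_eq (u : ℕ) : 2 ^ (20 * u) = B ^ u := by
  rw [pow_mul]
  rfl

theorem wsum_eq (u n : ℕ) : wsum u n = ∑ k ∈ Finset.range n, (row k / B ^ u % B) * row k := by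
  induction n with
  | zero => rfl
  | succ n ih => rw [wsum, ih, Finset.sum_range_succ, Nat.shiftRight_eq_div_pow, two_pow_eq]

theorem allRows_spec (n : ℕ) (h : allRows n = true) (u : ℕ) (hu : u < n) :
    wsum u 416 = 96 * row u + 3456 * ones := by
  induction n with
  | zero => omega
  | succ n ih =>
    rw [allRows, Bool.and_eq_true, beq_iff_eq] at h
    rcases Nat.lt_succ_iff_lt_or_eq.mp hu with h' | h'
    · exact ih h.1 h'
    · subst h'
      exact h.2

theorem sum_EE_lt (u v : ℕ) : ∑ k ∈ Finset.range 416, E k u * E k v < B := by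
  have h : ∑ k ∈ Finset.range 416, E k u * E k v ≤ (Finset.range 416).card • (23 * 23) :=
    Finset.sum_le_card_nsmul _ _ _ fun k _ => Nat.mul_le_mul (E_le k u) (E_le k v)
  rw [Finset.card_range, smul_eq_mul] at h
  exact lt_of_le_of_lt h (by norm_num [B])

theorem sum_E_lt (v : ℕ) : ∑ k ∈ Finset.range 416, 1 * E k v < B := by
  have h : ∑ k ∈ Finset.range 416, 1 * E k v ≤ (Finset.range 416).card • 23 :=
    Finset.sum_le_card_nsmul _ _ _ fun k _ => by rw [one_mul]; exact E_le k v
  rw [Finset.card_range, smul_eq_mul] at h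
  exact lt_of_le_of_lt h (by norm_num [B])

/-- The product identity on the entries. -/
theorem sum_EE (u v : ℕ) (hu : u < 416) (hv : v < 416) :
    ∑ k ∈ Finset.range 416, E k u * E k v = 96 * E u v + 3456 * 1 := by
  have hc := all_check
  rw [Bool.and_eq_true] at hc
  have h1 := allRows_spec 416 hc.1 u hu
  rw [wsum_eq] at h1
  have h2 : ∑ k ∈ Finset.range 416, (row k / B ^ u % B) * row k
      = ∑ k ∈ Finset.range 416, E k u * pack (E k) 416 := by
    refine Finset.sum_congr rfl fun k hk => ?_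
    rw [row_eq k (Finset.mem_range.mp hk), pack_digit (E k) (E_lt k) 416 u hu]
  rw [h2, pack_sum, row_eq u hu, ones, ← pack_smul, ← pack_smul, ← pack_add] at h1
  refine pack_inj _ _ (fun w => sum_EE_lt u w) (fun w => ?_) 416 h1 v hv
  have := E_le u w
  have hB : B = 1048576 := rfl
  omega

/-- The column sums of the entries. -/
theorem sum_E (v : ℕ) (hv : v < 416) : ∑ k ∈ Finset.range 416, 1 * E k v = 1248 * 1 := by
  have hc := all_check
  rw [Bool.and_eq_true, beq_iff_eq] at hc
  have h1 := hc.2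
  rw [colsum_eq] at h1
  have h2 : ∑ k ∈ Finset.range 416, row k = ∑ k ∈ Finset.range 416, 1 * pack (E k) 416 := by
    refine Finset.sum_congr rfl fun k hk => ?_
    rw [row_eq k (Finset.mem_range.mp hk), one_mul]
  rw [h2, pack_sum, ones, ← pack_smul] at h1
  refine pack_inj _ _ (fun w => sum_E_lt w) (fun w => ?_) 416 h1 v hv
  norm_num [B]

/-- The entries of `Nmat`, shifted by `3`, are the packed digits. -/
theorem E_cast (u v : ℕ) :
    (E u v : ℤ) = gram u v - 2 * w1 u * w1 v - w1 u * w2 v - w2 u * w1 v - 2 * w2 u * w2 v + 3 := by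
  have hb : rk u / 2 ^ v % 2 = 0 ∨ rk u / 2 ^ v % 2 = 1 := Nat.mod_two_eq_zero_or_one _
  have hb' : rk u / 2 ^ u % 2 = 0 ∨ rk u / 2 ^ u % 2 = 1 := Nat.mod_two_eq_zero_or_one _
  have hg : gram u v = if u = v then 15 else if rk u / 2 ^ v % 2 = 1 then 3 else -1 := by
    unfold gram adjBit
    rw [Nat.testBit_eq_decide_div_mod_eq]
    simp only [decide_eq_true_eq]
    rfl
  rw [hg]
  unfold E bent cl w1 w2
  by_cases huv : v = u
  · subst huv
    rcases hb with hb | hb <;> simp only [hb] <;> split_ifs <;>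
      first | contradiction | omega
  · have huv' : ¬ u = v := fun h => huv h.symm
    rcases hb with hb | hb <;> simp only [hb, huv, huv', if_false] <;> split_ifs <;>
      first | contradiction | omega

theorem Nmat_apply (a b : Fin 416) : Nmat a b = (E a b : ℤ) - 3 := by
  rw [E_cast]
  simp only [Nmat, Matrix.of_apply]
  ring

/-- The matrix identity: `Nmat` is `96` times a projection. -/
theorem Nmat_sq : Nmat.transpose * Nmat = (96 : ℤ) • Nmat := by
  ext u v
  rw [Matrix.mul_apply, Matrix.smul_apply]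
  simp only [Matrix.transpose_apply, Nmat_apply]
  rw [Fin.sum_univ_eq_sum_range (fun k => ((E k u : ℤ) - 3) * ((E k v : ℤ) - 3)) 416]
  have h1 := sum_EE u v u.2 v.2
  have h2 := sum_E u u.2
  have h3 := sum_E v v.2
  have e1 : (∑ k ∈ Finset.range 416, ((E k u : ℤ) * (E k v : ℤ))) = 96 * (E u v : ℤ) + 3456 := by
    exact_mod_cast h1
  have e2 : (∑ k ∈ Finset.range 416, (E k u : ℤ)) = 1248 := by
    simp only [one_mul, mul_one] at h2
    exact_mod_cast h2
  have e3 : (∑ k ∈ Finset.range 416, (E k v : ℤ)) = 1248 := by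
    simp only [one_mul, mul_one] at h3
    exact_mod_cast h3
  have e4 : ∀ k : ℕ, ((E k u : ℤ) - 3) * ((E k v : ℤ) - 3)
      = (E k u : ℤ) * (E k v : ℤ) - 3 * (E k u : ℤ) - 3 * (E k v : ℤ) + 9 := fun k => by ring
  simp only [e4, Finset.sum_add_distrib, Finset.sum_sub_distrib, ← Finset.mul_sum, e1, e2, e3,
    Finset.sum_const, Finset.card_range, smul_eq_mul]
  norm_num
  ring

end Vale.Agent.Lib.P052.H89
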